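import Vale.Agent.P216B.Main
import Vale.Agent.P216C.HairB

/-! P216C Main: flows on even dimensional spheres have fixed points. -/

open Set Filter Topology Metric
open scoped ContDiff Manifold

noncomputable section

namespace Vale.Agent.P216

open Vale.Agent.P255 Vale.Agent.P234

theorem MFlow.joint {X : Type} [MetricSpace X] {ψ : ℝ → X → X} (h : MFlow ψ) :
    Continuous fun p : ℝ × X => ψ p.1 p.2 := by
  refine continuous_iff_continuousAt.2 fun p => tendsto_iff_dist_tendsto_zero.2 ?_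
  have h1 : Continuous fun q : ℝ × X => dist q.2 p.2 + dist (ψ q.1 p.2) (ψ p.1 p.2) :=
    (continuous_snd.dist continuous_const).add
      (((h.cont p.2).comp continuous_fst).dist continuous_const)
  have h2 := h1.tendsto p
  rw [dist_self, dist_self, add_zero] at h2
  refine squeeze_zero (fun _ => dist_nonneg) (fun q => ?_) h2
  rw [← (h.iso q.1).dist_eq q.2 p.2]
  exact dist_triangle _ _ _

theorem MFlow.fixed {X : Type} [MetricSpace X] [CompactSpace X] {ψ : ℝ → X → X} (h : MFlow ψ)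
    {k : ℕ} (e : X ≃ₜ sphere (0 : EuclideanSpace ℝ (Fin (2 * k + 1))) 1) (T : ℝ) :
    ∃ p, ψ T p = p := by
  have o : IsOpen {q : ℝ × X | e (ψ q.1 q.2) ≠ -e q.2} :=
    isOpen_ne_fun (e.continuous.comp h.joint) (e.continuous.comp continuous_snd).neg
  have ev : ∀ᶠ t in 𝓝 (0 : ℝ), ∀ x ∈ (univ : Set X), e (ψ t x) ≠ -e x :=
    isCompact_univ.eventually_forall_of_forall_eventually fun x _ => o.mem_nhds (by
      change e (ψ 0 x) ≠ -e x
      rw [h.zero]
      exact ne_neg_of_mem_unit_sphere ℝ (e x))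
  obtain ⟨m, h1, h2⟩ := (((tendsto_const_div_atTop_nhds_zero_nat T).eventually ev).and
    (eventually_gt_atTop 0)).exists
  obtain ⟨x, hx | hx⟩ := hairy (φ := fun y => e (ψ (T / m) (e.symm y)))
    (e.continuous.comp ((h.iso _).continuous.comp e.symm.continuous))
  · have h3 : ψ (T / m) (e.symm x) = e.symm x := e.injective (by rw [hx, e.apply_symm_apply])
    have h4 : ∀ j : ℕ, ψ (j * (T / m)) (e.symm x) = e.symm x := by
      intro j
      induction j with
      | zero => rw [Nat.cast_zero, zero_mul, h.zero]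
      | succ j ih => rw [Nat.cast_succ, add_mul, one_mul, h.add, h3, ih]
    have h5 := h4 m
    rw [mul_div_cancel₀ _ (Nat.cast_ne_zero.2 h2.ne')] at h5
    exact ⟨_, h5⟩
  · refine (h1 (e.symm x) (mem_univ _) ?_).elim
    rw [e.apply_symm_apply]
    exact hx

variable {E M : Type} [NormedAddCommGroup E] [NormedSpace ℝ E] [FiniteDimensional ℝ E]
  [TopologicalSpace M] [ChartedSpace E M] [IsManifold 𝓘(ℝ, E) ∞ M] [T2Space M] [CompactSpace M]
  [ConnectedSpace M] (g : Metric E M)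

theorem mainC {ψ : ℝ → M → M} (hψ : IsoFlow g ψ) (hne : ∃ t x, ψ t x ≠ x)
    (h : (∀ T, (∀ x, ψ T (ψ T x) = x) → ∃ p, ψ T p = p) ∨
      (∃ ψ' : ℝ → M → M, IsoFlow g ψ' ∧ ∃ s, ∀ t, ψ' s ≠ ψ t) ∨
      ∃ k : ℕ, Nonempty (M ≃ₜ sphere (0 : EuclideanSpace ℝ (Fin (2 * k + 1))) 1)) : InfMany g := by
  refine mainB g hψ hne (h.elim Or.inl fun h => h.elim Or.inr fun ⟨k, ⟨e⟩⟩ => Or.inl fun T _ => ?_)
  letI := rm g
  exact MFlow.fixed ⟨hψ.zero, hψ.add, hψ.cont, fun t => Isometry.of_dist_eq (hψ.iso t)⟩ e T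

end Vale.Agent.P216
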